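import Vale.Agent.P004F.St
import Vale.Agent.P014U.X4F.Pat.Ul

/-! # P014U, port of P004F: the finite levels of the Iwasawa algebra -/

set_option linter.all false

open PowerSeries

noncomputable section

namespace Vale.Agent.P014U.X4F

export Vale.Agent.P004F (Nt)

variable [Pp]

abbrev La : Type := Pat.La

/-- `Λ / (p ^ j, T ^ j)` -/
abbrev Rj (j : ℕ) : Type := Pat.Rk j

/-- `𝔽_p[T] / T ^ J` -/
abbrev Rb (J : ℕ) : Type := PowerSeries (ZMod pp) ⧸ Ideal.span {(X : PowerSeries (ZMod pp)) ^ J}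

/-- constants -/
def cj (j : ℕ) : ℤ_[pp] →+* Rj j := (Ideal.Quotient.mk _).comp C

/-- constants modulo `p` -/
def cb (J : ℕ) : ℤ_[pp] →+* Rb J := ((Ideal.Quotient.mk _).comp C).comp PadicInt.toZMod

/-- the class in `Rj j` -/
abbrev mj (j : ℕ) : La →+* Rj j := Ideal.Quotient.mk _

end Vale.Agent.P014U.X4F
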